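import Crest.Agent.X262.Ends.Defs
import Crest.Agent.X262.Tree87.T4

/-!
# Row 262, road B, ENDS (helper25): the pieces of the proof of `NumStmt`

* `Sw f y`, `SwP f g` : the point `y` (the curve `g`) satisfies all relations of the line `f`;
* `Mb d f g`          : `g` is a reparametrisation of a conjugate of `f`;
* `cfl g`             : the field of moduli of `g`;  `KS S d g` : the sections killed by the syzygies;
* `GR p g s g'`       : the rescaled forms `s • g` reduce to `g'` along the place `p`;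
* `ParStmt`, `VanStmt`, `SqStmt`, `MobStmt`, `RbStmt`, `PosStmt`, `GoodStmt`, `TermStmt`, `ExStmt`.
-/

set_option autoImplicit false
set_option linter.unusedSectionVars false

noncomputable section

namespace Crest.Agent.X262.Ends

open Crest.Agent.X277 Crest.Agent.X277.BD Crest.Agent.X277.Pst Crest.Agent.X277.BD.Cyc Polynomial
open Crest.Agent.X262.Hb Crest.Agent.X262.Vb
open Crest.Agent.X262.Bub96 (hv Tr)
open Crest.Agent.X262.Bub96.Tr (dot)
open Crest.Agent.X262.Tree87 (GoodS Big)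

variable {J : Type} [Fintype J] [DecidableEq J] {io : J → Type} [∀ j, Fintype (io j)]
  [∀ j, DecidableEq (io j)] {A : Type} [Fintype A]

section

variable {K E L : Type} [Field K] [Algebra ℂ K] [Field E] [Algebra ℂ E] [Field L] [Algebra ℂ L]

/-- the point satisfies the relations of the line -/
def Sw (f : (j : J) → io j → K[X]) (y : Pnt io E) : Prop :=
  NZ y ∧ ∀ q κ, MH q κ → pf f q = 0 → pv y q = 0

/-- the curve satisfies the relations of the line -/
def SwP (f : (j : J) → io j → K[X]) (g : (j : J) → io j → E[X]) : Prop :=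
  ∀ q κ, MH q κ → pf f q = 0 → pf g q = 0

/-- `g` is a reparametrisation of a conjugate of `f` -/
def Mb (d : J → ℕ) (f : (j : J) → io j → K[X]) (g : (j : J) → io j → E[X]) : Prop :=
  ∃ (β : K →ₐ[ℂ] E) (μ : Matrix (Fin 2) (Fin 2) E) (c : J → E), μ.det ≠ 0 ∧ (∀ j, c j ≠ 0) ∧
    ∀ j i, g j i = C (c j) * mob (d j) μ ((f j i).map (β : K →+* E))

/-- the field of moduli of a tuple of forms -/
def cfl (g : (j : J) → io j → E[X]) : IntermediateField ℂ E :=
  IntermediateField.adjoin ℂ {t | ∃ j i i' l l', t = (g j i).coeff l / (g j i').coeff l'}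

/-- the value of a tuple of forms at a point of the line -/
def pt (d : J → ℕ) (g : (j : J) → io j → E[X]) (t : Option E) : Pnt io E :=
  fun j i => hv (d j) (g j i) t

/-- extension of scalars of a tuple of forms -/
def mpf (α : E →+* L) (g : (j : J) → io j → E[X]) : (j : J) → io j → L[X] :=
  fun j i => (g j i).map α

/-- rescaling of a tuple of forms -/
def scf (s : J → E) (g : (j : J) → io j → E[X]) : (j : J) → io j → E[X] :=
  fun j i => C (s j) * g j i

/-- the coefficients of the sections of the ambient bundle -/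
abbrev Cx (T : Tgt io A) (d : J → ℕ) : Type := Σ a : A, Fin (dot (T.k a) d + 1)

/-- the section with given coefficients -/
def pol {T : Tgt io A} {d : J → ℕ} (u : Cx T d → E) (a : A) : E[X] :=
  ∑ l : Fin (dot (T.k a) d + 1), monomial l (u ⟨a, l⟩)

/-- the coefficients of the equations along a curve -/
def eqc (T : Tgt io A) (d : J → ℕ) (g : (j : J) → io j → E[X]) : Cx T d → E :=
  fun x => (pf g (T.F x.1)).coeff x.2

/-- sections killed by the syzygies -/
def KS {T : Tgt io A} (S : Syz T) (d : J → ℕ) (g : (j : J) → io j → E[X]) :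
    Submodule E (Cx T d → E) where
  carrier := {u | ∀ b, ∑ a, pf g (S.ρ b a) * pol u a = 0}
  zero_mem' b := by simp [pol]
  add_mem' {u u'} h h' b := by
    have e : ∀ a, pol (u + u') a = pol u a + pol u' a := fun a => by
      simp [pol, Finset.sum_add_distrib]
    simp only [e, mul_add, Finset.sum_add_distrib, h b, h' b, add_zero]
  smul_mem' c u h b := by
    have e : ∀ a, pol (c • u) a = C c * pol u a := fun a => by
      simp [pol, Finset.mul_sum, C_mul_monomial]
    simp only [e, mul_left_comm _ (C c), ← Finset.mul_sum, h b, mul_zero]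

open Classical in
/-- reduction of the points of the line -/
def rx (p : Pl ℂ L ℂ E) : Option L → Option E
  | none => none
  | some t => if t ∈ p.V.1 then some (p.r t) else none

/-- the forms `s • g` reduce to `g'`, and `g'` has a coefficient `1` in every factor -/
structure GR (p : Pl ℂ L ℂ E) (g : (j : J) → io j → L[X]) (s : J → L)
    (g' : (j : J) → io j → E[X]) : Prop where
  mem : ∀ j i l, s j * (g j i).coeff l ∈ p.V.1
  red : ∀ j i l, p.r (s j * (g j i).coeff l) = (g' j i).coeff l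
  one : ∀ j, ∃ i l, (g' j i).coeff l = 1

end

/-- points of the swept variety -/
def ParStmt : Prop :=
  ∀ {J : Type} [Fintype J] [DecidableEq J] {io : J → Type} [∀ j, Fintype (io j)]
    [∀ j, DecidableEq (io j)] {A : Type} [Fintype A] (T : Tgt io A) (d ν : J → ℕ) (j₁ : J)
    {K : Type} [Field K] [Algebra ℂ K] [Algebra.EssFiniteType ℂ K] (f : (j : J) → io j → K[X]),
    Line T d ν j₁ f → ∀ (E : Type) [Field E] [Algebra ℂ E] (y : Pnt io E), Sw f y →
    dim ℂ (bas ν y) ≤ ∑ j, ν j ∧ (∑ j, ν j ≤ dim ℂ (bas ν y) →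
      ∃ (β : K →ₐ[ℂ] E) (t : Option E) (c : J → E), (∀ j, c j ≠ 0) ∧
        ∀ j i, y j i = c j * hv (d j) ((f j i).map (β : K →+* E)) t)

/-- vanishing by dimension -/
def VanStmt : Prop :=
  ∀ (B : Th), B.Ax → ∀ {J : Type} [Fintype J] [DecidableEq J] {io : J → Type}
    [∀ j, Fintype (io j)] [∀ j, DecidableEq (io j)] (ν : J → ℕ) (E : Type) [Field E] [Algebra ℂ E]
    (y : Pnt io E), NZ y → dim ℂ (bas ν y) < ∑ j, ν j → ∏ j, hc B j E y ^ ν j = 0

/-- the square of the fibre class vanishes on the fibre -/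
def SqStmt : Prop :=
  ∀ (B : Th), B.Ax → ∀ {J : Type} [Fintype J] [DecidableEq J] {io : J → Type}
    [∀ j, Fintype (io j)] [∀ j, DecidableEq (io j)] {A : Type} [Fintype A] (T : Tgt io A)
    (d ν : J → ℕ) (j₁ : J) {K : Type} [Field K] [Algebra ℂ K] [Algebra.EssFiniteType ℂ K]
    (f : (j : J) → io j → K[X]), Line T d ν j₁ f → ∀ (E : Type) [Field E] [Algebra ℂ E]
    (y : Pnt io E), Sw f y → hc B j₁ E y ^ 2 * ∏ j, hc B j E y ^ ν j = 0

/-- curves of the swept variety -/
def MobStmt : Prop :=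
  ∀ {J : Type} [Fintype J] [DecidableEq J] {io : J → Type} [∀ j, Fintype (io j)]
    [∀ j, DecidableEq (io j)] {A : Type} [Fintype A] (T : Tgt io A) (d ν : J → ℕ) (j₁ : J)
    {K : Type} [Field K] [Algebra ℂ K] [Algebra.EssFiniteType ℂ K] (f : (j : J) → io j → K[X]),
    Line T d ν j₁ f → ∀ (E : Type) [Field E] [Algebra ℂ E] (g : (j : J) → io j → E[X]),
    (∀ j i, (g j i).natDegree ≤ d j) → (∀ j, ∃ i, g j i ≠ 0) → SwP f g →
    ∑ j, ν j ≤ dim ℂ (bas ν fun j i => (g j i).coeff 0) →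
    (∃ i i', (g j₁ i).coeff 0 * (g j₁ i').coeff 1 ≠ (g j₁ i').coeff 0 * (g j₁ i).coeff 1) →
    Mb d f g

/-- bounds for the moduli and for the rank -/
def RbStmt : Prop :=
  ∀ {J : Type} [Fintype J] [DecidableEq J] {io : J → Type} [∀ j, Fintype (io j)]
    [∀ j, DecidableEq (io j)] {A : Type} [Fintype A] (T : Tgt io A) (c : ℕ) (d ν : J → ℕ) (j₁ : J)
    {K : Type} [Field K] [Algebra ℂ K] [Algebra.EssFiniteType ℂ K] (f : (j : J) → io j → K[X])
    (S : Syz T), GoodS S c d → Line T d ν j₁ f → Rk T d (∑ j, ν j) f →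
    ∀ (E : Type) [Field E] [Algebra ℂ E] (g : (j : J) → io j → E[X]), Mb d f g →
    Cp d g ∧ (∀ a, pf g (T.F a) = 0) ∧ dim ℂ (cfl g) ≤ ∑ j, ν j + 3 ∧
      Module.finrank E (KS S d g) + ∑ j, ν j + 3 ≤ mdim io d 3

/-- the insertion has a nonnegative integral, positive on the generic three-pointed line -/
def PosStmt : Prop :=
  ∀ (B : Th), B.Ax → ∀ {J : Type} [Fintype J] [DecidableEq J] {io : J → Type}
    [∀ j, Fintype (io j)] [∀ j, DecidableEq (io j)] (ν : J → ℕ) (j₁ : J) {M : Type} [Fintype M]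
    (q₀ : M) (E : Type) [Field E] [Algebra ℂ E] [Algebra.EssFiniteType ℂ E],
    (∀ y : M → Pnt io E, ∃ n : ℕ, B.itg E (lin B ν j₁ q₀ E y) = n) ∧
    ∀ {A : Type} [Fintype A] (T : Tgt io A) (d : J → ℕ) {K : Type} [Field K] [Algebra ℂ K]
      [Algebra.EssFiniteType ℂ K] (f : (j : J) → io j → K[X]), Line T d ν j₁ f →
      ∀ (g : (j : J) → io j → E[X]) (x : M → Option E) (a b c : M), Mb d f g →
      Fintype.card M = 3 → x a = none → x b = some 0 → x c = some 1 → dim ℂ E = ∑ j, ν j + 3 →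
      dim ℂ (cfl g) = dim ℂ E → B.itg E (lin B ν j₁ q₀ E fun q => pt d g (x q)) ≠ 0

/-- a component with a nonzero insertion is a component of good reduction -/
def GoodStmt : Prop :=
  ∀ (B : Th), B.Ax → ∀ {J : Type} [Fintype J] [DecidableEq J] {io : J → Type}
    [∀ j, Fintype (io j)] [∀ j, DecidableEq (io j)] {A : Type} [Fintype A] (T : Tgt io A)
    (d ν : J → ℕ) (j₁ : J) {K : Type} [Field K] [Algebra ℂ K] [Algebra.EssFiniteType ℂ K]
    (f : (j : J) → io j → K[X]), Line T d ν j₁ f → ∀ {N : ℕ}, (∀ a j, T.k a j ≤ N) →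
    ∀ {I M L E : Type} [Fintype I] [Fintype M] [Field L] [Algebra ℂ L] [Field E] [Algebra ℂ E]
    (η : Dat io d I L) (m : M → I) (q₀ a b c : M), η.NrmUp N → Fintype.card M = 3 →
    η.x (m a) = none → η.x (m b) = some 0 → η.x (m c) = some 1 → ∀ p : LP L E,
    (η.cfg.red p.toPl).On T → (lin B ν j₁ q₀ E fun q => (η.cfg.red p.toPl).y (m q)) ≠ 0 →
    ∃ s g, GR p.toPl η.f s g ∧ Mb d f g

/-- the contribution of a component of good reduction -/
def TermStmt : Prop :=
  ∀ (B : Th), B.Ax → ∀ {J : Type} [Fintype J] [DecidableEq J] {io : J → Type}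
    [∀ j, Fintype (io j)] [∀ j, DecidableEq (io j)] {A : Type} [Fintype A] (T : Tgt io A) (c : ℕ)
    (d : J → ℕ) (S : Syz T) (N : ℕ), GoodS S c d → Big S N →
    ∀ {I M L : Type} [Fintype I] [Fintype M] [Field L] [Algebra ℂ L] [Algebra.EssFiniteType ℂ L]
    (η : Dat io d I L) (m : M → I), η.NrmUp N → ∀ W : RZ ℂ L, Dvs W →
    ∀ {K : Type} [Field K] [Algebra ℂ K] [Algebra.EssFiniteType ℂ K] [CharZero K]
    [Algebra K (Rf W)] [IsScalarTower ℂ K (Rf W)] [Algebra.EssFiniteType K (Rf W)]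
    (g : (j : J) → io j → K[X]) (s : J → L) (x : M → Option K),
    Cp d g → (∀ a, pf g (T.F a) = 0) → GR (plV W) η.f s (mpf (algebraMap K (Rf W)) g) →
    (∀ q, rx (plV W) (η.x (m q)) = (x q).map (algebraMap K (Rf W))) →
    ∀ τ : L, (∀ y, τ * eqc T d (scf s η.f) y ∈ W.1) → ∀ u : Cx T d → Rf W,
    (∀ y, u y = (plV W).r (τ * eqc T d (scf s η.f) y)) → u ≠ 0 →
    u ∈ mapS (IsScalarTower.toAlgHom ℂ K (Rf W)) (KS S d g) ∧
    ∀ (Φ : MFam B io M) (r : ℕ), MCls B T Φ → Module.finrank K (KS S d g) = r + 1 →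
      r + dim ℂ K ≤ dim ℂ (Rf W) → B.itg (Rf W) (trm B T η.cfg m Φ W) =
        bnum (List.replicate r (mxf K u)) * B.itg K (Φ K fun q => pt d g (x q))

/-- there is a component of good reduction whose normal direction is generic -/
def ExStmt : Prop :=
  ∀ {J : Type} [Fintype J] [DecidableEq J] {io : J → Type} [∀ j, Fintype (io j)]
    [∀ j, DecidableEq (io j)] {A : Type} [Fintype A] (T : Tgt io A) (d ν : J → ℕ) (j₁ : J)
    {K : Type} [Field K] [Algebra ℂ K] [Algebra.EssFiniteType ℂ K] (f : (j : J) → io j → K[X]),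
    (∃ a, T.F a ≠ 0) → Line T d ν j₁ f → ∀ {M K₀ L : Type} [Fintype M] [Field K₀] [Algebra ℂ K₀]
    [Algebra.EssFiniteType ℂ K₀] [Field L] [Algebra ℂ L] [Algebra.EssFiniteType ℂ L]
    (ξ : Dat io d M K₀) (θ : K₀ →ₐ[ℂ] L), ξ.Univ → Fintype.card M = 3 → 0 < deg θ →
    ∃ (W : RZ ℂ L) (s : J → L) (g : (j : J) → io j → (Rf W)[X]) (τ : L) (u : Cx T d → Rf W),
      Dvs W ∧ GR (plV W) (ξ.map θ).f s g ∧ Mb d f g ∧
      (∀ y, τ * eqc T d (scf s (ξ.map θ).f) y ∈ W.1) ∧
      (∀ y, u y = (plV W).r (τ * eqc T d (scf s (ξ.map θ).f) y)) ∧ u ≠ 0 ∧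
      dim ℂ (Rf W) ≤ dim ℂ (cfl g ⊔ qf ℂ u : IntermediateField ℂ (Rf W))

end Crest.Agent.X262.Ends
end
private theorem rz_408e3be69a : type_of% @_root_.Crest.Agent.X262.Ends.rx.eq_1 := @_root_.Crest.Agent.X262.Ends.rx.eq_1 -- L90
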